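import Mathlib
import Vale.Agent.H62.P229.Defs
import Vale.Agent.H62.P229.Molding
import Vale.Agent.H62.P229.Killing
import Vale.Agent.H62.P229.Ruled

open scoped ContDiff

namespace Vale.Agent.Results.P229.A_ThreeFamilies

open Vale.Agent.H62.P229

/-- Three families of smooth metrics on the plane that are locally `C^∞`-realizable in Euclidean
three-space at every point where they are nondegenerate, whatever the zero set of the curvature:

* `E(x) dx² + (a(y) + b(y) s(x))² dy²` (metrics of molding surfaces; this contains the warped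
  metrics `E(x) dx² + s(x)² dy²`);
* `E(x) dx² + 2 F(x) dx dy + G(x) dy²` (metrics with the Killing field `∂_y`);
* `dx² + ((α(y) + β(y) x)² + γ(y)²) dy²` (metrics of ruled surfaces). -/
theorem result :
    (∀ E a b s : ℝ → ℝ, ContDiff ℝ ∞ E → ContDiff ℝ ∞ a → ContDiff ℝ ∞ b → ContDiff ℝ ∞ s →
      ∀ x₀ y₀ : ℝ, 0 < E x₀ → a y₀ + b y₀ * s x₀ ≠ 0 →
        LocallySmoothlyRealizableAt (fun p => E p.1) (fun _ => 0)
          (fun p => (a p.2 + b p.2 * s p.1) ^ 2) (x₀, y₀)) ∧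
    (∀ E F G : ℝ → ℝ, ContDiff ℝ ∞ E → ContDiff ℝ ∞ F → ContDiff ℝ ∞ G →
      ∀ x₀ y₀ : ℝ, 0 < E x₀ → 0 < E x₀ * G x₀ - F x₀ ^ 2 →
        LocallySmoothlyRealizableAt (fun p => E p.1) (fun p => F p.1) (fun p => G p.1)
          (x₀, y₀)) ∧
    (∀ α β γ : ℝ → ℝ, ContDiff ℝ ∞ α → ContDiff ℝ ∞ β → ContDiff ℝ ∞ γ →
      ∀ x₀ y₀ : ℝ, (α y₀ + β y₀ * x₀) ^ 2 + γ y₀ ^ 2 ≠ 0 →
        LocallySmoothlyRealizableAt (fun _ => 1) (fun _ => 0)
          (fun p => (α p.2 + β p.2 * p.1) ^ 2 + γ p.2 ^ 2) (x₀, y₀)) :=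
  ⟨fun E a b s hE ha hb hs x₀ y₀ h1 h2 => molding_realizable E a b s hE ha hb hs x₀ y₀ h1 h2,
    fun E F G hE hF hG x₀ y₀ h1 h2 => killing_realizable E F G hE hF hG x₀ y₀ h1 h2,
    fun α β γ hα hβ hγ x₀ y₀ h => ruled_realizable α β γ hα hβ hγ x₀ y₀ h⟩

end Vale.Agent.Results.P229.A_ThreeFamilies
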