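import Mathlib
import Vale.Agent.Results.P229.A_ThreeFamilies

open scoped ContDiff

namespace Vale.Agent.Results.P229.A_ThreeFamiliesAndWarped

open Vale.Agent.H62.P229

/-- The three families of `A_ThreeFamilies` (molding-surface metrics, metrics with the Killing
field `∂_y`, ruled-surface metrics) together with the corollary for warped metrics
`E(x) dx² + s(x)² dy²`: each is locally `C^∞`-realizable in Euclidean three-space at every
point where it is positive definite. -/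
theorem result :
    ((∀ E a b s : ℝ → ℝ, ContDiff ℝ ∞ E → ContDiff ℝ ∞ a → ContDiff ℝ ∞ b → ContDiff ℝ ∞ s →
      ∀ x₀ y₀ : ℝ, 0 < E x₀ → a y₀ + b y₀ * s x₀ ≠ 0 →
        LocallySmoothlyRealizableAt (fun p => E p.1) (fun _ => 0)
          (fun p => (a p.2 + b p.2 * s p.1) ^ 2) (x₀, y₀)) ∧
    (∀ E F G : ℝ → ℝ, ContDiff ℝ ∞ E → ContDiff ℝ ∞ F → ContDiff ℝ ∞ G →
      ∀ x₀ y₀ : ℝ, 0 < E x₀ → 0 < E x₀ * G x₀ - F x₀ ^ 2 →
        LocallySmoothlyRealizableAt (fun p => E p.1) (fun p => F p.1) (fun p => G p.1)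
          (x₀, y₀)) ∧
    (∀ α β γ : ℝ → ℝ, ContDiff ℝ ∞ α → ContDiff ℝ ∞ β → ContDiff ℝ ∞ γ →
      ∀ x₀ y₀ : ℝ, (α y₀ + β y₀ * x₀) ^ 2 + γ y₀ ^ 2 ≠ 0 →
        LocallySmoothlyRealizableAt (fun _ => 1) (fun _ => 0)
          (fun p => (α p.2 + β p.2 * p.1) ^ 2 + γ p.2 ^ 2) (x₀, y₀))) ∧
    (∀ E s : ℝ → ℝ, ContDiff ℝ ∞ E → ContDiff ℝ ∞ s →
      ∀ x₀ y₀ : ℝ, 0 < E x₀ → s x₀ ≠ 0 →
        LocallySmoothlyRealizableAt (fun p => E p.1) (fun _ => 0) (fun p => s p.1 ^ 2)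
          (x₀, y₀)) := by
  refine ⟨Vale.Agent.Results.P229.A_ThreeFamilies.result, ?_⟩
  intro E s hE hs x₀ y₀ hE0 hs0
  have h := Vale.Agent.Results.P229.A_ThreeFamilies.result.1 E (fun _ => 0) (fun _ => 1) s hE
    contDiff_const contDiff_const hs x₀ y₀ hE0 (by simpa using hs0)
  simpa using h

end Vale.Agent.Results.P229.A_ThreeFamiliesAndWarped
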