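import Mathlib
import Vale.Agent.H62.P229.Defs
import Vale.Agent.H62.P229.Molding

open scoped ContDiff

namespace Vale.Agent.Results.P229.B_MoldingMetric

open Vale.Agent.H62.P229

/-- Every smooth metric of the form `E(x) dx² + (a(y) + b(y) s(x))² dy²` is locally
`C^∞`-realizable in Euclidean three-space at every point where it is nondegenerate. -/
theorem result (E a b s : ℝ → ℝ)
    (hE : ContDiff ℝ ∞ E) (ha : ContDiff ℝ ∞ a) (hb : ContDiff ℝ ∞ b) (hs : ContDiff ℝ ∞ s)
    (x₀ y₀ : ℝ) (hE0 : 0 < E x₀) (hf0 : a y₀ + b y₀ * s x₀ ≠ 0) :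
    LocallySmoothlyRealizableAt (fun p => E p.1) (fun _ => 0)
      (fun p => (a p.2 + b p.2 * s p.1) ^ 2) (x₀, y₀) :=
  molding_realizable E a b s hE ha hb hs x₀ y₀ hE0 hf0

end Vale.Agent.Results.P229.B_MoldingMetric
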